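import Vale.Agent.Lib.P336.Proofs

/-!
The explicit code has `2 ^ (3 * m)` variables.  Every depth-three OR-AND-OR circuit that computes
membership in the code, and in which every middle AND gate accepts an affine subspace of the cube
(or nothing), has at least `2 ^ s` gates as soon as `384 * s ^ 2 ≤ n * log₂ n` with
`n = (2 ^ m) ^ 3` and `log₂ n = 3 * m`.
-/

open Vale.Agent.Lib.P336 in
theorem Vale.Agent.Results.P336.A_affine.result
    (m : ℕ) (hm : 2 ≤ m) (F : Type) [Field F] [Fintype F] [DecidableEq F] [CharP F 2]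
    (hF : Fintype.card F = 2 ^ m) (C : Circuit (F × F × F))
    (hC : ∀ x, C.val x ↔ InCode F (2 ^ (m - 1)) x) (haff : C.AffineAnds)
    (s : ℕ) (hs : 384 * s ^ 2 ≤ (2 ^ m) ^ 3 * (3 * m)) : 2 ^ s ≤ C.size :=
  affine_lower_bound m hm F hF C hC haff s hs
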